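import Vale.Agent.P309B7.Defs
import Vale.Agent.P309.H362.Defs

/-!
# P309 bridge: the success probability of the experiment satisfies the backward recursion
-/

namespace Vale.Agent.P309B7

open MeasureTheory ProbabilityTheory P309
open scoped ENNReal RealInnerProductSpace

universe u

section Resample

variable {α : Type*} [MeasurableSpace α] (μ : ℕ → Measure α) [∀ i, IsProbabilityMeasure (μ i)]

theorem upd_mp (j : ℕ) : MeasurePreserving (fun p : (ℕ → α) × α => Function.update p.1 j p.2)
    ((Measure.infinitePi μ).prod (μ j)) (Measure.infinitePi μ) := by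
  refine ⟨measurable_update', Measure.eq_infinitePi μ fun s t ht => ?_⟩
  rw [Measure.map_apply measurable_update'
    (MeasurableSet.pi (Finset.countable_toSet s) fun i _ => ht i)]
  by_cases hj : j ∈ s
  · have e : (fun p : (ℕ → α) × α => Function.update p.1 j p.2) ⁻¹' Set.pi s t =
        Set.pi (s.erase j : Finset ℕ) t ×ˢ t j := by
      ext p
      simp only [Set.mem_preimage, Set.mem_pi, Finset.mem_coe, Set.mem_prod, Finset.mem_erase]
      refine ⟨fun h => ⟨fun i hi => ?_, ?_⟩, fun h i hi => ?_⟩
      · have h1 := h i hi.2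
        rwa [Function.update_of_ne hi.1] at h1
      · have h1 := h j hj
        rwa [Function.update_self] at h1
      · by_cases hij : i = j
        · subst hij
          rw [Function.update_self]
          exact h.2
        · rw [Function.update_of_ne hij]
          exact h.1 i ⟨hij, hi⟩
    rw [e, Measure.prod_prod, Measure.infinitePi_pi μ fun i _ => ht i,
      Finset.prod_erase_mul _ _ hj]
  · have e : (fun p : (ℕ → α) × α => Function.update p.1 j p.2) ⁻¹' Set.pi s t =
        Set.pi s t ×ˢ Set.univ := by
      ext p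
      simp only [Set.mem_preimage, Set.mem_pi, Finset.mem_coe, Set.mem_prod, Set.mem_univ,
        and_true]
      exact forall₂_congr fun i hi => by
        rw [Function.update_of_ne (fun h : i = j => hj (h ▸ hi))]
    rw [e, Measure.prod_prod, Measure.infinitePi_pi μ fun i _ => ht i, measure_univ, mul_one]

theorem resample (j : ℕ) {F : (ℕ → α) × α → ℝ≥0∞} (hF : Measurable F)
    (h : ∀ x y z, F (Function.update x j y, z) = F (x, z)) :
    ∫⁻ x, F (x, x j) ∂Measure.infinitePi μ =
      ∫⁻ x, ∫⁻ y, F (x, y) ∂μ j ∂Measure.infinitePi μ := by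
  have hG : Measurable fun x : ℕ → α => F (x, x j) :=
    hF.comp (measurable_id.prodMk (measurable_pi_apply j))
  rw [← (upd_mp μ j).lintegral_comp hG]
  simp only [Function.update_self, h]
  exact lintegral_prod _ hF.aemeasurable

end Resample

variable {d N N' : ℕ} {R : Type u} [MeasurableSpace R]

namespace Rule

variable (L : Rule d N R)

theorem run_congr (s : Sph d) {x x' : ℕ → Eu d} {r r' : ℕ → R} (h0 : r 0 = r' 0) (t : ℕ)
    (hx : ∀ i < t, x i = x' i) (hr : ∀ i < t, r (i + 2) = r' (i + 2)) :
    L.run s x r t = L.run s x' r' t := by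
  induction t with
  | zero => simp only [run, h0]
  | succ t ih =>
    have h := ih (fun i hi => hx i (by omega)) fun i hi => hr i (by omega)
    simp only [run, h, hx t (by omega), hr t (by omega)]

theorem run_time (s : Sph d) (x : ℕ → Eu d) (r : ℕ → R) (t : ℕ)
    (h : ¬ (L.run s x r t).1.1 = true) : (L.run s x r t).2 = t := by
  cases t with
  | zero => rfl
  | succ t =>
    by_cases h1 : (L.run s x r t).1.1 = true
    · refine absurd ?_ h
      rw [run, if_pos h1]
      exact h1
    · simp only [run, if_neg h1]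

/-- one step. -/
noncomputable def next (t : ℕ) (s : Sph d) (c : (Bool × Fin N) × ℕ) (y : Eu d) (v : R) :
    (Bool × Fin N) × ℕ :=
  if c.1.1 = true then c else (L.step t (v, c.1.2, y, ⟪y, (s : Eu d)⟫), t + 1)

theorem meas_next {Z : Type*} [MeasurableSpace Z] (t : ℕ) {s : Z → Sph d}
    {c : Z → (Bool × Fin N) × ℕ} {y : Z → Eu d} {v : Z → R} (hs : Measurable s)
    (hc : Measurable c) (hy : Measurable y) (hv : Measurable v) :
    Measurable fun z => L.next t (s z) (c z) (y z) (v z) := by
  refine Measurable.ite (hc.fst.fst (measurableSet_singleton true)) hc ?_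
  refine Measurable.prodMk ((L.meas_step t).comp ?_) measurable_const
  exact hv.prodMk (hc.fst.snd.prodMk (hy.prodMk (hy.inner (measurable_subtype_coe.comp hs))))

theorem meas_run {Z : Type*} [MeasurableSpace Z] {s : Z → Sph d} {x : Z → ℕ → Eu d}
    {r : Z → ℕ → R} (hs : Measurable s) (hx : Measurable x) (hr : Measurable r) (t : ℕ) :
    Measurable fun z => L.run (s z) (x z) (r z) t := by
  induction t with
  | zero =>
    exact (measurable_const.prodMk
      (L.meas_init.comp ((measurable_pi_apply 0).comp hr))).prodMk measurable_const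
  | succ t ih =>
    exact L.meas_next t hs ih ((measurable_pi_apply t).comp hx)
      ((measurable_pi_apply (t + 2)).comp hr)

theorem meas_out' : Measurable fun p : ((Bool × Fin N) × ℕ) × R => L.out p.1.2 (p.2, p.1.1.2) :=
  measurable_from_prod_countable_right fun c =>
    (L.meas_out c.2).comp (f := fun v => (v, c.1.2)) (measurable_id.prodMk measurable_const)

end Rule

theorem meas_good (ε : ℝ) :
    MeasurableSet {p : Sph d × Sph d | Real.arccos ⟪(p.1 : Eu d), (p.2 : Eu d)⟫ ≤ ε} :=
  measurableSet_le (Real.continuous_arccos.measurable.comp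
    ((measurable_subtype_coe.comp measurable_fst).inner
      (measurable_subtype_coe.comp measurable_snd))) measurable_const

/-- the kernels of `K` are the laws of the rules `L`. -/
structure Rep (L : Rule d N R) (K : Learner (Eu d) N') (ι : Fin N → Fin N') (μ : ℕ → Measure R) :
    Prop where
  init : K.init = (μ 0).map fun v => ι (L.init v)
  step : ∀ t q y a, K.step t (ι q, y, a) = (μ (t + 2)).map fun v =>
    ((L.step t (v, q, y, a)).1, ι (L.step t (v, q, y, a)).2)
  out : ∀ t q, K.out t (ι q) = (μ 1).map fun v => L.out t (v, q)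

/-- value of a configuration. -/
noncomputable def val (K : Learner (Eu d) N') (ι : Fin N → Fin N') (ε : ℝ) (s : Sph d) (k t : ℕ)
    (c : (Bool × Fin N) × ℕ) : ℝ≥0∞ :=
  if c.1.1 = true then K.good ε c.2 (ι c.1.2) s else K.win ε k t (ι c.1.2) s

variable {L : Rule d N R} {K : Learner (Eu d) N'} {ι : Fin N → Fin N'} {μ : ℕ → Measure R}
  [∀ i, IsProbabilityMeasure (μ i)]

theorem Rep.val_next (h : Rep L K ι μ) (ε : ℝ) (s : Sph d) (k t : ℕ) (c : (Bool × Fin N) × ℕ) :
    ∫⁻ y, ∫⁻ v, val K ι ε s k (t + 1) (L.next t s c y v) ∂μ (t + 2) ∂stdGaussian (Eu d) =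
      val K ι ε s (k + 1) t c := by
  by_cases hc : c.1.1 = true
  · simp [Rule.next, val, hc]
  · simp only [Rule.next, val, if_neg hc, Learner.win]
    refine lintegral_congr fun y => ?_
    have hm : Measurable fun v => L.step t (v, c.1.2, y, ⟪y, (s : Eu d)⟫) :=
      (L.meas_step t).comp (measurable_id.prodMk measurable_const)
    rw [h.step]
    exact (lintegral_map (measurable_of_countable fun p : Bool × Fin N' =>
      if p.1 = true then K.good ε (t + 1) p.2 s else K.win ε k (t + 1) p.2 s)
      (hm.fst.prodMk ((measurable_of_countable ι).comp hm.snd))).symm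

theorem Rep.step_eq (h : Rep L K ι μ) (ε : ℝ) (s : Sph d) (k t : ℕ) :
    ∫⁻ x, ∫⁻ r, val K ι ε s k (t + 1) (L.run s x r (t + 1)) ∂Measure.infinitePi μ
        ∂Measure.infinitePi (fun _ : ℕ => stdGaussian (Eu d)) =
      ∫⁻ x, ∫⁻ r, val K ι ε s (k + 1) t (L.run s x r t) ∂Measure.infinitePi μ
        ∂Measure.infinitePi (fun _ : ℕ => stdGaussian (Eu d)) := by
  have hV : Measurable (val K ι ε s k (t + 1)) := measurable_of_countable _
  have hH : Measurable fun p : (((ℕ → Eu d) × Eu d) × (ℕ → R)) × R =>
      val K ι ε s k (t + 1) (L.next t s (L.run s p.1.1.1 p.1.2 t) p.1.1.2 p.2) :=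
    hV.comp (L.meas_next t measurable_const
      (L.meas_run measurable_const measurable_fst.fst.fst measurable_fst.snd t)
      measurable_fst.fst.snd measurable_snd)
  have h1 : ∀ x : ℕ → Eu d,
      ∫⁻ r, val K ι ε s k (t + 1) (L.run s x r (t + 1)) ∂Measure.infinitePi μ =
        ∫⁻ r, ∫⁻ v, val K ι ε s k (t + 1) (L.next t s (L.run s x r t) (x t) v) ∂μ (t + 2)
          ∂Measure.infinitePi μ := fun x =>
    resample μ (t + 2)
      (F := fun p => val K ι ε s k (t + 1) (L.next t s (L.run s x p.1 t) (x t) p.2))
      (hH.comp (f := fun p : (ℕ → R) × R => (((x, x t), p.1), p.2)) (by fun_prop))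
      fun r v z => by
        dsimp only
        rw [L.run_congr s (x' := x) (r' := r) (Function.update_of_ne (by omega) _ _) t
          (fun _ _ => rfl) fun i hi => Function.update_of_ne (by omega) _ _]
  simp only [h1]
  refine (resample (fun _ : ℕ => stdGaussian (Eu d)) t
    (F := fun p => ∫⁻ r, ∫⁻ v, val K ι ε s k (t + 1) (L.next t s (L.run s p.1 r t) p.2 v)
      ∂μ (t + 2) ∂Measure.infinitePi μ)
    hH.lintegral_prod_right'.lintegral_prod_right' fun x y z => ?_).trans ?_
  · refine lintegral_congr fun r => ?_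
    rw [L.run_congr s (x' := x) (r' := r) rfl t
      (fun i hi => Function.update_of_ne (by omega) _ _) fun _ _ => rfl]
  · refine lintegral_congr fun x => ?_
    have h2 : Measurable fun p : Eu d × (ℕ → R) =>
        ∫⁻ v, val K ι ε s k (t + 1) (L.next t s (L.run s x p.2 t) p.1 v) ∂μ (t + 2) :=
      hH.lintegral_prod_right'.comp (f := fun p : Eu d × (ℕ → R) => ((x, p.1), p.2)) (by fun_prop)
    refine (lintegral_lintegral_swap (f := fun y r =>
      ∫⁻ v, val K ι ε s k (t + 1) (L.next t s (L.run s x r t) y v) ∂μ (t + 2))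
      h2.aemeasurable).trans ?_
    exact lintegral_congr fun r => h.val_next ε s k t _

theorem Rep.all_eq (h : Rep L K ι μ) (ε : ℝ) (s : Sph d) (t : ℕ) : ∀ k,
    ∫⁻ x, ∫⁻ r, val K ι ε s k t (L.run s x r t) ∂Measure.infinitePi μ
        ∂Measure.infinitePi (fun _ : ℕ => stdGaussian (Eu d)) = K.successAt (k + t) ε s := by
  induction t with
  | zero =>
    intro k
    have h1 : ∀ x : ℕ → Eu d, ∫⁻ r, val K ι ε s k 0 (L.run s x r 0) ∂Measure.infinitePi μ =
        K.successAt k ε s := fun x => by
      have hm : Measurable fun v => ι (L.init v) := (measurable_of_countable ι).comp L.meas_init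
      rw [Learner.successAt, h.init, lintegral_map (measurable_of_countable _) hm]
      exact (measurePreserving_eval_infinitePi μ 0).lintegral_comp
        ((measurable_of_countable fun q => K.win ε k 0 q s).comp hm)
    simp [h1]
  | succ t ih =>
    intro k
    rw [h.step_eq, ih, show k + 1 + t = k + (t + 1) by omega]

theorem Rep.section_eq (h : Rep L K ι μ) (T : ℕ) (ε : ℝ) (s : Sph d) :
    ∫⁻ x, Measure.infinitePi μ
        {r | Real.arccos ⟪(L.estimate T s x r : Eu d), (s : Eu d)⟫ ≤ ε}
        ∂Measure.infinitePi (fun _ : ℕ => stdGaussian (Eu d)) = K.successAt T ε s := by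
  have h0 := h.all_eq ε s T 0
  rw [zero_add] at h0
  rw [← h0]
  refine lintegral_congr fun x => ?_
  have hA : MeasurableSet {z : Sph d | Real.arccos ⟪(z : Eu d), (s : Eu d)⟫ ≤ ε} :=
    measurable_prodMk_right (meas_good ε)
  have hO : Measurable fun p : (ℕ → R) × R =>
      L.out (L.run s x p.1 T).2 (p.2, (L.run s x p.1 T).1.2) :=
    L.meas_out'.comp ((L.meas_run measurable_const measurable_const measurable_fst T).prodMk
      measurable_snd)
  have h1 := resample μ 1
    (F := fun p => {z : Sph d | Real.arccos ⟪(z : Eu d), (s : Eu d)⟫ ≤ ε}.indicator 1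
      (L.out (L.run s x p.1 T).2 (p.2, (L.run s x p.1 T).1.2)))
    ((measurable_one.indicator hA).comp hO) fun r v z => by
      dsimp only
      rw [L.run_congr s (x' := x) (r' := r) (Function.update_of_ne (by omega) _ _) T
        (fun _ _ => rfl) fun i hi => Function.update_of_ne (by omega) _ _]
  have hE : MeasurableSet {r | Real.arccos ⟪(L.estimate T s x r : Eu d), (s : Eu d)⟫ ≤ ε} :=
    (hO.comp (measurable_id.prodMk (measurable_pi_apply 1))) hA
  rw [← lintegral_indicator_one hE]
  refine Eq.trans h1 (lintegral_congr fun r => ?_)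
  have h2 : val K ι ε s 0 T (L.run s x r T) =
      K.good ε (L.run s x r T).2 (ι (L.run s x r T).1.2) s := by
    unfold val
    split_ifs with hc
    · rfl
    · rw [L.run_time s x r T hc]
      rfl
  have hm : Measurable fun v => L.out (L.run s x r T).2 (v, (L.run s x r T).1.2) :=
    (L.meas_out _).comp (measurable_id.prodMk measurable_const)
  rw [h2, Learner.good, h.out, Measure.map_apply hm hA, ← lintegral_indicator_one (hm hA)]
  rfl

theorem IsExperiment.success_eq {Ω : Type u} [MeasurableSpace Ω] {P : Measure Ω} {S : Ω → Sph d}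
    {X : ℕ → Ω → Eu d} {U : ℕ → Ω → R} (hE : IsExperiment P S X U)
    (h : Rep L K ι fun t => P.map (U t)) (T : ℕ) (ε : ℝ) :
    L.success T ε P S X U = K.successProb T ε := by
  have := hE.prob
  have : ∀ t, IsProbabilityMeasure (P.map (U t)) := fun t =>
    Measure.isProbabilityMeasure_map (hE.measU t).aemeasurable
  have hX : Measurable fun ω t => X t ω := measurable_pi_lambda _ hE.measX
  have hU : Measurable fun ω t => U t ω := measurable_pi_lambda _ hE.measU
  have : IsProbabilityMeasure (unifSphere (Eu d)) :=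
    hE.lawS ▸ Measure.isProbabilityMeasure_map hE.measS.aemeasurable
  have law : P.map (fun ω => ((S ω, fun t => X t ω), fun t => U t ω)) =
      ((unifSphere (Eu d)).prod (Measure.infinitePi fun _ : ℕ => stdGaussian (Eu d))).prod
        (Measure.infinitePi fun t => P.map (U t)) := by
    rw [hE.indSXU.map_prod_eq_prod_map_map (hE.measS.prodMk hX).aemeasurable hU.aemeasurable,
      hE.indSX.map_prod_eq_prod_map_map hE.measS.aemeasurable hX.aemeasurable, hE.lawS,
      hE.indX.map_fun_eq_infinitePi_map hE.measX, hE.indU.map_fun_eq_infinitePi_map hE.measU]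
    simp only [hE.lawX]
  have hA : MeasurableSet {p : (Sph d × (ℕ → Eu d)) × (ℕ → R) |
      Real.arccos ⟪(L.estimate T p.1.1 p.1.2 p.2 : Eu d), (p.1.1 : Eu d)⟫ ≤ ε} :=
    ((L.meas_out'.comp ((L.meas_run measurable_fst.fst measurable_fst.snd measurable_snd T).prodMk
      ((measurable_pi_apply 1).comp measurable_snd))).prodMk measurable_fst.fst) (meas_good ε)
  have h1 := Measure.map_apply (μ := P) ((hE.measS.prodMk hX).prodMk hU) hA
  rw [law, Measure.prod_apply hA, lintegral_prod _ (measurable_measure_prodMk_left hA).aemeasurable]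
    at h1
  exact h1.symm.trans (lintegral_congr fun s => h.section_eq T ε s)

end Vale.Agent.P309B7
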