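import Mathlib
import Vale.Agent.P309.LearnerDefs

/-!
# P309: the learning experiment on a probability space
-/

namespace Vale.Agent.P309B7

open MeasureTheory ProbabilityTheory
open scoped ENNReal RealInnerProductSpace

universe u

/-- Euclidean space. -/
abbrev Eu (d : ℕ) : Type := EuclideanSpace ℝ (Fin d)

/-- The unit sphere. -/
abbrev Sph (d : ℕ) : Type := Metric.sphere (0 : Eu d) 1

/-- The rules of a learner with `N` states: measurable functions with a random seed in `R`.
`step t` maps the seed, the state and the current pair to the stopping decision and the new state;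
`out t` is the output rule after `t` pairs have been read. -/
structure Rule (d N : ℕ) (R : Type u) [MeasurableSpace R] where
  init : R → Fin N
  step : ℕ → R × Fin N × Eu d × ℝ → Bool × Fin N
  out : ℕ → R × Fin N → Sph d
  meas_init : Measurable init
  meas_step : ∀ t, Measurable (step t)
  meas_out : ∀ t, Measurable (out t)

variable {d N : ℕ} {R Ω : Type u} [MeasurableSpace R] [MeasurableSpace Ω]

/-- Stopping flag, state and number of pairs read after index `t`, for the signal `s`, the rows `x`
and the seeds `r`; `r 0` is used for the initial state, `r (t + 2)` for the step on the row `x t`. -/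
noncomputable def Rule.run (L : Rule d N R) (s : Sph d) (x : ℕ → Eu d) (r : ℕ → R) :
    ℕ → (Bool × Fin N) × ℕ
  | 0 => ((false, L.init (r 0)), 0)
  | t + 1 =>
    if (L.run s x r t).1.1 = true then L.run s x r t
    else (L.step t (r (t + 2), (L.run s x r t).1.2, x t, ⟪x t, (s : Eu d)⟫), t + 1)

/-- The output with horizon `T`; it uses the seed `r 1`. -/
noncomputable def Rule.estimate (L : Rule d N R) (T : ℕ) (s : Sph d) (x : ℕ → Eu d) (r : ℕ → R) :
    Sph d :=
  L.out (L.run s x r T).2 (r 1, (L.run s x r T).1.2)

/-- The signal `S` is uniform on the sphere, the rows `X t` are standard Gaussian, and the signal,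
the rows and the seeds `U t` are all independent. -/
structure IsExperiment (P : Measure Ω) (S : Ω → Sph d) (X : ℕ → Ω → Eu d) (U : ℕ → Ω → R) :
    Prop where
  prob : IsProbabilityMeasure P
  measS : Measurable S
  measX : ∀ t, Measurable (X t)
  measU : ∀ t, Measurable (U t)
  lawS : P.map S = P309.unifSphere (Eu d)
  lawX : ∀ t, P.map (X t) = stdGaussian (Eu d)
  indX : iIndepFun X P
  indU : iIndepFun U P
  indSX : IndepFun S (fun ω t => X t ω) P
  indSXU : IndepFun (fun ω => (S ω, fun t => X t ω)) (fun ω t => U t ω) P

/-- The probability that the output is within angle `ε` of the signal. -/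
noncomputable def Rule.success (L : Rule d N R) (T : ℕ) (ε : ℝ) (P : Measure Ω) (S : Ω → Sph d)
    (X : ℕ → Ω → Eu d) (U : ℕ → Ω → R) : ℝ≥0∞ :=
  P {ω | Real.arccos
    ⟪(L.estimate T (S ω) (fun t => X t ω) (fun t => U t ω) : Eu d), (S ω : Eu d)⟫ ≤ ε}

/-- The least horizon of a learner with `M` bits, whose output rule does not depend on the index,
which succeeds at accuracy `ε`; it is `⊤` if there is none. -/
noncomputable def horizon (d M : ℕ) (ε : ℝ) : ℕ∞ :=
  ⨅ (T : ℕ) (_ : ∃ (N : ℕ) (R Ω : Type) (_ : MeasurableSpace R) (_ : MeasurableSpace Ω)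
    (L : Rule d N R) (P : Measure Ω) (S : Ω → Sph d) (X : ℕ → Ω → Eu d) (U : ℕ → Ω → R),
    N ≤ 2 ^ M ∧ (∀ t, L.out t = L.out 0) ∧ IsExperiment P S X U ∧
      2 / 3 ≤ L.success T ε P S X U), (T : ℕ∞)

end Vale.Agent.P309B7
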