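import Vale.Agent.P309B7.Core
import Vale.Agent.P309.H362.Main

/-!
# P309 bridge: rules and kernels describe the same learners
-/

namespace Vale.Agent.P309B7

open MeasureTheory ProbabilityTheory P309
open scoped ENNReal RealInnerProductSpace unitInterval

universe u

theorem exists_kernel {R A B : Type*} [MeasurableSpace R] [MeasurableSpace A] [MeasurableSpace B]
    (μ : Measure R) [IsProbabilityMeasure μ] {f : R × A → B} (hf : Measurable f) :
    ∃ K : Kernel A B, IsMarkovKernel K ∧ ∀ a, K a = μ.map fun v => f (v, a) := by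
  refine ⟨(Kernel.const A μ ×ₖ Kernel.id).map f, Kernel.IsMarkovKernel.map _ hf, fun a => ?_⟩
  rw [Kernel.map_apply _ hf, Kernel.prod_apply, Kernel.const_apply, Kernel.id_apply,
    Measure.prod_dirac, Measure.map_map hf measurable_prodMk_right]
  rfl

variable {d N N' : ℕ} {R : Type u} [MeasurableSpace R]

theorem to_learner (L : Rule d N R) (hN : N ≤ N') (μ : ℕ → Measure R)
    [∀ i, IsProbabilityMeasure (μ i)] :
    ∃ (K : Learner (Eu d) N') (ι : Fin N → Fin N'), Rep L K ι μ ∧
      ((∀ t, L.out t = L.out 0) → K.FixedOutput) := by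
  obtain ⟨r₀⟩ : Nonempty R := nonempty_of_isProbabilityMeasure (μ 0)
  have : Nonempty (Fin N) := ⟨L.init r₀⟩
  obtain ⟨ρ, hρ⟩ := (Fin.castLE_injective hN).hasLeftInverse
  have hι : Measurable (Fin.castLE hN) := measurable_of_countable _
  have hρ' : Measurable ρ := measurable_of_countable _
  have hs : ∀ t, Measurable fun p : R × Fin N' × Eu d × ℝ => L.step t (p.1, ρ p.2.1, p.2.2) :=
    fun t => (L.meas_step t).comp
      (measurable_fst.prodMk ((hρ'.comp measurable_snd.fst).prodMk measurable_snd.snd))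
  choose st h1 h2 using fun t => exists_kernel (μ (t + 2))
    ((hs t).fst.prodMk (hι.comp (hs t).snd))
  choose ou h3 h4 using fun t => exists_kernel (μ 1) (f := fun p : R × Fin N' =>
    L.out t (p.1, ρ p.2)) ((L.meas_out t).comp (measurable_fst.prodMk (hρ'.comp measurable_snd)))
  refine ⟨⟨(μ 0).map fun v => Fin.castLE hN (L.init v),
    Measure.isProbabilityMeasure_map (hι.comp L.meas_init).aemeasurable, st, h1, ou, h3⟩,
    Fin.castLE hN, ⟨rfl, fun t q y a => ?_, fun t q => ?_⟩, fun h t => ?_⟩
  · change st t _ = _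
    rw [h2]
    simp only [hρ q, Function.comp_apply]
  · change ou t _ = _
    rw [h4]
    simp only [hρ q]
  · refine Kernel.ext fun a => ?_
    change ou t a = ou 0 a
    rw [h4, h4, h t]

theorem of_learner (hd : 1 ≤ d) (K : Learner (Eu d) N) (hK : K.FixedOutput) :
    ∃ L : Rule d N I, Rep L K id (fun _ => volume) ∧ ∀ t, L.out t = L.out 0 := by
  have := K.init_prob
  have := K.step_markov
  have := K.out_markov
  have := Upper.isProb_unifSphere hd
  have : Nonempty (Fin N) := nonempty_of_isProbabilityMeasure K.init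
  have : Nonempty (Sph d) := nonempty_of_isProbabilityMeasure (unifSphere (Eu d))
  obtain ⟨f, hf, hf'⟩ := K.init.exists_measurable_map_eq
  choose g hg hg' using fun t => (K.step t).exists_measurable_map_eq_unitInterval
  obtain ⟨o, ho, ho'⟩ := (K.out 0).exists_measurable_map_eq_unitInterval
  exact ⟨⟨f, fun t p => g t p.2 p.1, fun _ p => o p.2 p.1, hf,
    fun t => (hg t).comp measurable_swap, fun _ => ho.comp measurable_swap⟩,
    ⟨hf'.symm, fun t q y a => (hg' t _).symm, fun t q => by rw [hK t]; exact (ho' q).symm⟩,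
    fun _ => rfl⟩

theorem iIndep_mp {Ω Ω' β : Type*} [MeasurableSpace Ω] [MeasurableSpace Ω'] [MeasurableSpace β]
    {P : Measure Ω} {P' : Measure Ω'} {φ : Ω → Ω'} (hφ : MeasurePreserving φ P P')
    {X : ℕ → Ω' → β} (hX : ∀ t, Measurable (X t)) (h : iIndepFun X P') :
    iIndepFun (fun t ω => X t (φ ω)) P := by
  rw [iIndepFun_iff_measure_inter_preimage_eq_mul] at h ⊢
  intro S B hB
  have h3 : ∀ v ∈ S, MeasurableSet (X v ⁻¹' B v) := fun v hv => hX v (hB v hv)
  have h4 := hφ.measure_preimage (Finset.measurableSet_biInter S h3).nullMeasurableSet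
  rw [h S hB, Set.preimage_iInter₂] at h4
  refine h4.trans (Finset.prod_congr rfl fun v hv => ?_)
  exact (hφ.measure_preimage (h3 v hv).nullMeasurableSet).symm

theorem indep_mp {Ω Ω' β β' : Type*} [MeasurableSpace Ω] [MeasurableSpace Ω'] [MeasurableSpace β]
    [MeasurableSpace β'] {P : Measure Ω} {P' : Measure Ω'} {φ : Ω → Ω'}
    (hφ : MeasurePreserving φ P P') {X : Ω' → β} {Y : Ω' → β'} (hX : Measurable X)
    (hY : Measurable Y) (h : IndepFun X Y P') :
    IndepFun (fun ω => X (φ ω)) (fun ω => Y (φ ω)) P := by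
  rw [indepFun_iff_measure_inter_preimage_eq_mul] at h ⊢
  intro s t hs ht
  have h4 := hφ.measure_preimage ((hX hs).inter (hY ht)).nullMeasurableSet
  rw [h s t hs ht, ← hφ.measure_preimage (hX hs).nullMeasurableSet,
    ← hφ.measure_preimage (hY ht).nullMeasurableSet] at h4
  exact h4

theorem exists_experiment (hd : 1 ≤ d) :
    ∃ (Ω : Type) (_ : MeasurableSpace Ω) (P : Measure Ω) (S : Ω → Sph d) (X : ℕ → Ω → Eu d)
      (U : ℕ → Ω → I), IsExperiment P S X U ∧ ∀ t, P.map (U t) = volume := by
  have := Upper.isProb_unifSphere hd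
  let P₁ : Measure (ℕ → Eu d) := Measure.infinitePi fun _ => stdGaussian (Eu d)
  let P₂ : Measure (ℕ → I) := Measure.infinitePi fun _ => volume
  let Q : Measure (Sph d × (ℕ → Eu d)) := (unifSphere (Eu d)).prod P₁
  have h1 : MeasurePreserving Prod.fst (Q.prod P₂) Q := measurePreserving_fst
  have h2 : MeasurePreserving Prod.snd (Q.prod P₂) P₂ := measurePreserving_snd
  have h3 : MeasurePreserving Prod.fst Q (unifSphere (Eu d)) := measurePreserving_fst
  have h4 : MeasurePreserving Prod.snd Q P₁ := measurePreserving_snd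
  refine ⟨(Sph d × (ℕ → Eu d)) × (ℕ → I), inferInstance, Q.prod P₂, fun ω => ω.1.1,
    fun t ω => ω.1.2 t, fun t ω => ω.2 t, ⟨inferInstance, measurable_fst.fst,
      fun t => (measurable_pi_apply t).comp measurable_fst.snd,
      fun t => (measurable_pi_apply t).comp measurable_snd, (h3.comp h1).map_eq,
      fun t => ((measurePreserving_eval_infinitePi _ t).comp (h4.comp h1)).map_eq,
      iIndep_mp (h4.comp h1) (X := fun t x => x t) measurable_pi_apply
        (iIndepFun_infinitePi (X := fun _ k => k) fun _ => measurable_id),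
      iIndep_mp h2 (X := fun t x => x t) measurable_pi_apply
        (iIndepFun_infinitePi (X := fun _ k => k) fun _ => measurable_id),
      indep_mp h1 measurable_fst measurable_snd (indepFun_prod measurable_id measurable_id),
      indepFun_prod measurable_id measurable_id⟩,
    fun t => ((measurePreserving_eval_infinitePi _ t).comp h2).map_eq⟩

theorem IsExperiment.exists_learner {Ω : Type u} [MeasurableSpace Ω] {P : Measure Ω}
    {S : Ω → Sph d} {X : ℕ → Ω → Eu d} {U : ℕ → Ω → R} (hE : IsExperiment P S X U)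
    (L : Rule d N R) (hN : N ≤ N') :
    ∃ K : Learner (Eu d) N', ((∀ t, L.out t = L.out 0) → K.FixedOutput) ∧
      ∀ T ε, L.success T ε P S X U = K.successProb T ε := by
  have := hE.prob
  have : ∀ t, IsProbabilityMeasure (P.map (U t)) := fun t =>
    Measure.isProbabilityMeasure_map (hE.measU t).aemeasurable
  obtain ⟨K, ι, h1, h2⟩ := to_learner L hN fun t => P.map (U t)
  exact ⟨K, h2, hE.success_eq h1⟩

theorem horizon_eq (hd : 1 ≤ d) (M : ℕ) (ε : ℝ) : horizon d M ε = leastHorizon d M ε := by
  refine iInf_congr fun T => iInf_congr_Prop ⟨?_, ?_⟩ fun _ => rfl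
  · rintro ⟨N, R, Ω, _, _, L, P, S, X, U, hN, hL, hE, h⟩
    obtain ⟨K, h1, h2⟩ := hE.exists_learner L hN
    exact ⟨K, h1 hL, (h2 T ε ▸ h :)⟩
  · rintro ⟨K, hK, h⟩
    obtain ⟨L, h1, h2⟩ := of_learner hd K hK
    obtain ⟨Ω, _, P, S, X, U, hE, hU⟩ := exists_experiment hd
    refine ⟨_, I, Ω, _, _, L, P, S, X, U, le_rfl, h2, hE, ?_⟩
    rw [hE.success_eq (K := K) (ι := id) (by simpa only [hU] using h1)]
    exact h

end Vale.Agent.P309B7
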